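import Vale.Agent.P331.Pool

/-!
# P331: the yardstick `∫ min (m t, k) dt` with `m t` the expected number of values above `t`
-/

open Finset MeasureTheory
open scoped NNReal ENNReal Classical

namespace Vale.Agent.P331

variable {α : Type}

/-- The chance that the value of `e` exceeds `t`. -/
noncomputable def above (D : α → Measure ℝ≥0) (e : α) (t : ℝ) : ℝ :=
  (D e).real {v | t < (v : ℝ)}

/-- The expected number of elements of `N` whose value exceeds `t`. -/
noncomputable def load (D : α → Measure ℝ≥0) (N : Finset α) (t : ℝ) : ℝ := ∑ e ∈ N, above D e t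

/-- The yardstick. -/
noncomputable def yard (D : α → Measure ℝ≥0) (N : Finset α) (k : ℕ) : ℝ≥0∞ :=
  ∫⁻ t in Set.Ioi (0 : ℝ), ENNReal.ofReal (min (load D N t) k)

/-- The `k`-th largest of `S` on `N`, or zero. -/
noncomputable def kth (N : Finset α) (k : ℕ) (S : α → ℝ≥0) : ℝ≥0 :=
  N.sup fun e => if k ≤ #(N.filter fun e' => S e ≤ S e') then S e else 0

theorem measurable_kth (N : Finset α) (k : ℕ) : Measurable (kth N k) := by
  refine measurable_sup_fun N (fun e (S : α → ℝ≥0) =>
    if k ≤ #(N.filter fun e' => S e ≤ S e') then S e else 0) fun e => ?_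
  refine Measurable.ite ?_ (measurable_pi_apply e) measurable_const
  have : Measurable fun S : α → ℝ≥0 => #(N.filter fun e' => S e ≤ S e') := by
    simp only [card_filter]
    exact Finset.measurable_sum _ fun e' _ => Measurable.ite
      (measurableSet_le (measurable_pi_apply e) (measurable_pi_apply e'))
        measurable_const measurable_const
  exact this (measurableSet_Ici (a := k))

/-- `t < kth` exactly when `k` samples exceed `t`. -/
theorem lt_kth_iff {N : Finset α} {k : ℕ} (hk : 0 < k) (S : α → ℝ≥0) {t : ℝ} (ht : 0 ≤ t) :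
    t < (kth N k S : ℝ) ↔ k ≤ #(N.filter fun e => t < (S e : ℝ)) := by
  constructor
  · intro h
    have h' : t.toNNReal < kth N k S := by
      rw [← NNReal.coe_lt_coe, Real.coe_toNNReal _ ht]; exact h
    obtain ⟨e, he, hlt⟩ := Finset.lt_sup_iff.1 h'
    split_ifs at hlt with hc
    · refine hc.trans (card_le_card fun e' he' => ?_)
      obtain ⟨h1, h2⟩ := mem_filter.1 he'
      refine mem_filter.2 ⟨h1, ?_⟩
      rw [← NNReal.coe_lt_coe, Real.coe_toNNReal _ ht] at hlt
      exact hlt.trans_le (NNReal.coe_le_coe.2 h2)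
    · exact absurd hlt not_lt_zero
  · intro h
    set A := N.filter fun e => t < (S e : ℝ)
    obtain ⟨e, he, hmin⟩ := A.exists_min_image S (card_pos.1 (hk.trans_le h))
    obtain ⟨heN, het⟩ := mem_filter.1 he
    have hc : k ≤ #(N.filter fun e' => S e ≤ S e') :=
      h.trans (card_le_card fun e' he' => mem_filter.2 ⟨(mem_filter.1 he').1, hmin e' he'⟩)
    have : S e ≤ kth N k S :=
      le_of_eq_of_le (if_pos hc).symm
        (le_sup (f := fun e => if k ≤ #(N.filter fun e' => S e ≤ S e') then S e else 0) heN)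
    exact het.trans_le (NNReal.coe_le_coe.2 this)

variable [Fintype α] (D : α → Measure ℝ≥0) [∀ e, IsProbabilityMeasure (D e)]

theorem measurableSet_above (t : ℝ) : MeasurableSet {v : ℝ≥0 | t < (v : ℝ)} :=
  measurableSet_lt measurable_const measurable_coe_nnreal_real

theorem measure_above (e : α) (t : ℝ) :
    Measure.pi D {S : α → ℝ≥0 | t < (S e : ℝ)} = ENNReal.ofReal (above D e t) := by
  rw [above, ofReal_measureReal]
  exact (measurePreserving_eval D e).measure_preimage (measurableSet_above t).nullMeasurableSet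

omit [Fintype α] [∀ e, IsProbabilityMeasure (D e)] in
theorem above_nonneg (e : α) (t : ℝ) : 0 ≤ above D e t := measureReal_nonneg

omit [Fintype α] in
theorem above_le_one (e : α) (t : ℝ) : above D e t ≤ 1 := measureReal_le_one

omit [Fintype α] in
theorem below_eq (e : α) (t : ℝ) :
    (D e).real {v : ℝ≥0 | (v : ℝ) ≤ t} = 1 - above D e t := by
  rw [above, ← probReal_compl_eq_one_sub (measurableSet_above t)]
  congr 1
  ext v
  simp

omit [Fintype α] [∀ e, IsProbabilityMeasure (D e)] in
theorem load_nonneg (N : Finset α) (t : ℝ) : 0 ≤ load D N t :=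
  sum_nonneg fun e _ => above_nonneg D e t

theorem lintegral_coe_eq {Z : Type*} [MeasurableSpace Z] (μ : Measure Z) (g : Z → ℝ≥0)
    (hg : Measurable g) :
    ∫⁻ z, (g z : ℝ≥0∞) ∂μ = ∫⁻ t in Set.Ioi (0 : ℝ), μ {z | t < (g z : ℝ)} := by
  rw [← lintegral_eq_lintegral_meas_lt μ (Filter.Eventually.of_forall fun z => (g z).coe_nonneg)
    hg.coe_nnreal_real.aemeasurable]
  simp

/-- The event that exactly the members of `A` exceed `t`. -/
theorem measure_exact (N A : Finset α) (hA : A ⊆ N) (t : ℝ) :
    Measure.pi D (Set.pi Set.univ fun e => if e ∈ A then {v : ℝ≥0 | t < (v : ℝ)}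
        else if e ∈ N then {v : ℝ≥0 | (v : ℝ) ≤ t} else Set.univ) =
      ENNReal.ofReal ((∏ e ∈ A, above D e t) * ∏ e ∈ N \ A, (1 - above D e t)) := by
  rw [Measure.pi_pi]
  set h : α → ℝ := fun e =>
    if e ∈ A then above D e t else if e ∈ N then 1 - above D e t else 1 with hh
  have e1 : ∀ e, (D e) (if e ∈ A then {v : ℝ≥0 | t < (v : ℝ)}
      else if e ∈ N then {v : ℝ≥0 | (v : ℝ) ≤ t} else Set.univ) = ENNReal.ofReal (h e) := by
    intro e
    simp only [hh]
    split_ifs
    · rw [above, ofReal_measureReal]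
    · rw [← below_eq, ofReal_measureReal]
    · simp
  have hnn : ∀ e ∈ (univ : Finset α), 0 ≤ h e := fun e _ => by
    simp only [hh]
    have := above_le_one D e t
    have := above_nonneg D e t
    split_ifs <;> linarith
  rw [prod_congr rfl fun e _ => e1 e, ← ENNReal.ofReal_prod_of_nonneg hnn]
  congr 1
  rw [← prod_subset (subset_univ N) fun e _ he => by
      simp only [hh]; rw [if_neg fun hm => he (hA hm), if_neg he], ← prod_sdiff hA, mul_comm]
  congr 1
  · exact prod_congr rfl fun e he => by simp [hh, he]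
  · exact prod_congr rfl fun e he => by
      simp [hh, (mem_sdiff.1 he).1, (mem_sdiff.1 he).2]

/-- The chance that fewer than `k` samples exceed `t`. -/
theorem measure_few_le (N : Finset α) (k : ℕ) (t : ℝ) :
    Measure.pi D {S : α → ℝ≥0 | #(N.filter fun e => t < (S e : ℝ)) < k} ≤
      ENNReal.ofReal (2 ^ k * ∏ e ∈ N, (1 - above D e t / 2)) := by
  set box : Finset α → Set (α → ℝ≥0) := fun A => Set.pi Set.univ fun e =>
    if e ∈ A then {v : ℝ≥0 | t < (v : ℝ)}
    else if e ∈ N then {v : ℝ≥0 | (v : ℝ) ≤ t} else Set.univ with hbox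
  have hsub : {S : α → ℝ≥0 | #(N.filter fun e => t < (S e : ℝ)) < k} ⊆
      ⋃ A ∈ N.powerset.filter fun A => #A < k, box A := by
    intro S hS
    simp only [Set.mem_iUnion]
    refine ⟨N.filter fun e => t < (S e : ℝ), mem_filter.2 ⟨mem_powerset.2 (filter_subset _ _), hS⟩,
      fun e _ => ?_⟩
    simp only [mem_filter]
    by_cases he : e ∈ N <;> by_cases ht : t < (S e : ℝ) <;>
      simp [he, ht, le_of_not_gt]
  refine (measure_mono hsub).trans ((measure_biUnion_finset_le _ _).trans ?_)
  have hnn : ∀ A ∈ N.powerset, 0 ≤ (∏ e ∈ A, above D e t) * ∏ e ∈ N \ A, (1 - above D e t) :=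
    fun A _ => mul_nonneg (prod_nonneg fun e _ => above_nonneg D e t)
      (prod_nonneg fun e _ => sub_nonneg.2 (above_le_one D e t))
  rw [sum_congr rfl fun A hA => measure_exact D N A (mem_powerset.1 (mem_filter.1 hA).1) t,
    ← ENNReal.ofReal_sum_of_nonneg fun A hA => hnn A (mem_filter.1 hA).1]
  refine ENNReal.ofReal_le_ofReal ?_
  have e : ∀ e ∈ N, (1 : ℝ) - above D e t / 2 = above D e t / 2 + (1 - above D e t) :=
    fun e _ => by ring
  rw [prod_congr rfl e, prod_add, mul_sum, sum_filter]
  refine sum_le_sum fun A hA => ?_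
  have h0 : 0 ≤ 2 ^ k * ((∏ e ∈ A, above D e t / 2) * ∏ e ∈ N \ A, (1 - above D e t)) :=
    mul_nonneg (by positivity) (mul_nonneg
      (prod_nonneg fun e _ => div_nonneg (above_nonneg D e t) (by norm_num))
      (prod_nonneg fun e _ => sub_nonneg.2 (above_le_one D e t)))
  split_ifs with hk
  · rw [prod_div_distrib, prod_const]
    have h2 : (1 : ℝ) ≤ 2 ^ k / 2 ^ #A := by
      rw [le_div_iff₀ (by positivity), one_mul]
      exact pow_le_pow_right₀ (by norm_num) hk.le
    calc (∏ e ∈ A, above D e t) * ∏ e ∈ N \ A, (1 - above D e t)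
        ≤ (2 ^ k / 2 ^ #A) * ((∏ e ∈ A, above D e t) * ∏ e ∈ N \ A, (1 - above D e t)) :=
          le_mul_of_one_le_left (hnn A hA) h2
      _ = _ := by ring
  · exact h0

omit [Fintype α] in
/-- `m q ≤ 3 min (m, k)` for the chance `q` of fewer than `k` successes. -/
theorem load_mul_few_le (N : Finset α) {k : ℕ} (hk : 0 < k) (t : ℝ) :
    load D N t * min 1 (2 ^ k * ∏ e ∈ N, (1 - above D e t / 2)) ≤ 3 * min (load D N t) k := by
  set m := load D N t with hm
  have hm0 : 0 ≤ m := load_nonneg D N t
  have hk1 : (1 : ℝ) ≤ k := by exact_mod_cast hk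
  rcases le_or_gt m (3 * k) with h | h
  · refine (mul_le_of_le_one_right hm0 (min_le_left _ _)).trans ?_
    rcases le_total m k with h' | h'
    · rw [min_eq_left h']; linarith
    · rw [min_eq_right h']; exact h
  · rw [min_eq_right (show (k : ℝ) ≤ m by linarith)]
    refine (mul_le_mul_of_nonneg_left (min_le_right _ _) hm0).trans ?_
    have hp : ∏ e ∈ N, (1 - above D e t / 2) ≤ Real.exp (-(m / 2)) := by
      rw [hm, load, Finset.sum_div, ← Finset.sum_neg_distrib, Real.exp_sum]
      refine prod_le_prod (fun e _ => by linarith [above_le_one D e t]) fun e _ => ?_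
      linarith [Real.add_one_le_exp (-(above D e t / 2))]
    have h2 : (2 : ℝ) ^ k ≤ Real.exp ((7 / 10) * k) := by
      rw [← Real.exp_log (by norm_num : (0 : ℝ) < 2), ← Real.exp_nat_mul]
      refine Real.exp_le_exp.2 ?_
      nlinarith [Real.log_two_lt_d9]
    have hb : 2 ^ k * ∏ e ∈ N, (1 - above D e t / 2) ≤ Real.exp (-(m / 4)) := by
      refine (mul_le_mul h2 hp (prod_nonneg fun e _ => by linarith [above_le_one D e t])
        (Real.exp_pos _).le).trans ?_
      rw [← Real.exp_add]
      exact Real.exp_le_exp.2 (by linarith)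
    refine (mul_le_mul_of_nonneg_left hb hm0).trans ?_
    have hq := Real.quadratic_le_exp_of_nonneg (show 0 ≤ m / 4 by linarith)
    have hexp : m / 4 * 2 ≤ Real.exp (m / 4) := by nlinarith [sq_nonneg (m / 4 - 1)]
    have hval : m * Real.exp (-(m / 4)) ≤ 2 := by
      rw [Real.exp_neg, ← div_eq_mul_inv, div_le_iff₀ (Real.exp_pos _)]
      linarith
    linarith

theorem lintegral_kth_le (N : Finset α) {k : ℕ} (hk : 0 < k) :
    (k : ℝ≥0∞) * ∫⁻ S, (kth N k S : ℝ≥0∞) ∂Measure.pi D ≤ yard D N k := by
  rw [lintegral_coe_eq _ _ (measurable_kth N k), ← lintegral_const_mul' _ _ (ENNReal.natCast_ne_top k)]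
  refine setLIntegral_mono_ae' measurableSet_Ioi (Filter.Eventually.of_forall fun t ht => ?_)
  have ht0 : (0 : ℝ) ≤ t := le_of_lt ht
  have hset : {S : α → ℝ≥0 | t < (kth N k S : ℝ)} =
      {S | k ≤ #(N.filter fun e => t < (S e : ℝ))} := Set.ext fun S => lt_kth_iff hk S ht0
  rw [hset]
  have hmeas : MeasurableSet {S : α → ℝ≥0 | k ≤ #(N.filter fun e => t < (S e : ℝ))} :=
    hset ▸ measurableSet_lt measurable_const (measurable_kth N k).coe_nnreal_real
  have hms : ∀ e, MeasurableSet {S : α → ℝ≥0 | t < (S e : ℝ)} := fun e =>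
    measurableSet_lt measurable_const (measurable_pi_apply e).coe_nnreal_real
  rcases le_total (load D N t) k with hle | hle
  · rw [min_eq_left hle]
    calc (k : ℝ≥0∞) * Measure.pi D {S | k ≤ #(N.filter fun e => t < (S e : ℝ))}
        = ∫⁻ S, ({S | k ≤ #(N.filter fun e => t < (S e : ℝ))} : Set (α → ℝ≥0)).indicator
            (fun _ => (k : ℝ≥0∞)) S ∂Measure.pi D := by
          rw [lintegral_indicator hmeas, setLIntegral_const]
      _ ≤ ∫⁻ S, ∑ e ∈ N, ({S | t < (S e : ℝ)} : Set (α → ℝ≥0)).indicator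
            (fun _ => (1 : ℝ≥0∞)) S ∂Measure.pi D := by
          refine lintegral_mono fun S => ?_
          simp only [Set.indicator_apply, Set.mem_ofPred_eq]
          rw [sum_boole]
          split_ifs with hS
          · exact_mod_cast hS
          · exact zero_le
      _ = ∑ e ∈ N, ENNReal.ofReal (above D e t) := by
          rw [lintegral_finsetSum _ fun e _ => measurable_const.indicator (hms e)]
          refine sum_congr rfl fun e _ => ?_
          rw [lintegral_indicator (hms e),
            setLIntegral_const, one_mul, measure_above]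
      _ = _ := (ENNReal.ofReal_sum_of_nonneg fun e _ => above_nonneg D e t).symm
  · rw [min_eq_right hle, ENNReal.ofReal_natCast]
    exact mul_le_of_le_one_right' prob_le_one

theorem lintegral_excess_le (N : Finset α) {k : ℕ} (hk : 0 < k) :
    ∫⁻ z, ((∑ e ∈ N, (z.2 e - kth N k z.1) : ℝ≥0) : ℝ≥0∞) ∂law D ≤ 3 * yard D N k := by
  let ind : α → (α → ℝ≥0) × (α → ℝ≥0) → ℝ → ℝ≥0∞ := fun e z t =>
    if (kth N k z.1 : ℝ) < t ∧ t < (z.2 e : ℝ) then 1 else 0
  have hT : Measurable fun p : ((α → ℝ≥0) × (α → ℝ≥0)) × ℝ => (kth N k p.1.1 : ℝ) :=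
    ((measurable_kth N k).comp (measurable_fst.comp measurable_fst)).coe_nnreal_real
  have hind : ∀ e, Measurable (Function.uncurry (ind e)) := fun e => by
    refine Measurable.ite ?_ measurable_const measurable_const
    exact (measurableSet_lt hT measurable_snd).inter (measurableSet_lt measurable_snd
      ((measurable_pi_apply e).comp (measurable_snd.comp measurable_fst)).coe_nnreal_real)
  have hseg : ∀ e z, ((z.2 e - kth N k z.1 : ℝ≥0) : ℝ≥0∞) =
      ∫⁻ t in Set.Ioi (0 : ℝ), ind e z t := by
    intro e z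
    have hfun : ind e z = (Set.Ioo (kth N k z.1 : ℝ) (z.2 e)).indicator fun _ => 1 := by
      funext t; simp [ind, Set.indicator_apply]
    rw [hfun, setLIntegral_indicator measurableSet_Ioo, setLIntegral_const, one_mul,
      show Set.Ioo (kth N k z.1 : ℝ) (z.2 e : ℝ) ∩ Set.Ioi 0 = Set.Ioo (kth N k z.1 : ℝ) (z.2 e)
        from Set.inter_eq_left.2 fun t ht => lt_of_le_of_lt (kth N k z.1).coe_nonneg ht.1,
      Real.volume_Ioo]
    rcases le_total (z.2 e) (kth N k z.1) with h | h
    · rw [tsub_eq_zero_of_le h, ENNReal.coe_zero, eq_comm, ENNReal.ofReal_eq_zero]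
      exact sub_nonpos.2 (NNReal.coe_le_coe.2 h)
    · rw [← NNReal.coe_sub h, ENNReal.ofReal_coe_nnreal]
  have hindl : ∀ e z, Measurable fun t => ind e z t := fun e _ => (hind e).of_uncurry_left
  have hindr : ∀ e t, Measurable fun z => ind e z t := fun e _ => (hind e).of_uncurry_right
  have hmsum : Measurable (Function.uncurry fun z t => ∑ e ∈ N, ind e z t) :=
    Finset.measurable_fun_sum N fun e _ => hind e
  calc ∫⁻ z, ((∑ e ∈ N, (z.2 e - kth N k z.1) : ℝ≥0) : ℝ≥0∞) ∂law D
      = ∫⁻ z, ∫⁻ t in Set.Ioi (0 : ℝ), ∑ e ∈ N, ind e z t ∂volume ∂law D := by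
        refine lintegral_congr fun z => ?_
        rw [ENNReal.ofNNReal_finsetSum, lintegral_finsetSum (f := fun e t => ind e z t) _ fun e _ =>
          hindl e z]
        exact sum_congr rfl fun e _ => hseg e z
    _ = ∫⁻ t in Set.Ioi (0 : ℝ), ∫⁻ z, ∑ e ∈ N, ind e z t ∂law D :=
        lintegral_lintegral_swap hmsum.aemeasurable
    _ ≤ ∫⁻ t in Set.Ioi (0 : ℝ), 3 * ENNReal.ofReal (min (load D N t) k) := by
        refine setLIntegral_mono_ae' measurableSet_Ioi (Filter.Eventually.of_forall fun t ht => ?_)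
        have ht0 : (0 : ℝ) ≤ t := le_of_lt ht
        set q := min 1 (2 ^ k * ∏ e ∈ N, (1 - above D e t / 2)) with hq
        have hQ : Measure.pi D {S : α → ℝ≥0 | (kth N k S : ℝ) < t} ≤ ENNReal.ofReal q := by
          rw [hq, ENNReal.ofReal_min, ENNReal.ofReal_one]
          refine le_min prob_le_one ((measure_mono fun S (hS : (kth N k S : ℝ) < t) => ?_).trans
            (measure_few_le D N k t))
          exact not_le.1 fun hge => lt_asymm hS ((lt_kth_iff hk S ht0).2 hge)
        have hterm : ∀ e ∈ N, ∫⁻ z, ind e z t ∂law D ≤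
            ENNReal.ofReal (q * above D e t) := by
          intro e _
          have hset : (fun z => ind e z t) =
              (({S : α → ℝ≥0 | (kth N k S : ℝ) < t}) ×ˢ {V : α → ℝ≥0 | t < (V e : ℝ)}).indicator
                fun _ => (1 : ℝ≥0∞) := by
            funext z; simp [ind, Set.indicator_apply]
          have hq0 : 0 ≤ q := le_min zero_le_one (mul_nonneg (by positivity)
            (prod_nonneg fun e' _ => by linarith [above_le_one D e' t]))
          rw [hset, lintegral_indicator ((measurableSet_lt (measurable_kth N k).coe_nnreal_real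
            measurable_const).prod (measurableSet_lt measurable_const (measurable_pi_apply e).coe_nnreal_real)),
            setLIntegral_const, one_mul, Measure.prod_prod, measure_above,
            ENNReal.ofReal_mul hq0]
          exact mul_le_mul_left hQ _
        rw [lintegral_finsetSum (f := fun e z => ind e z t) _ fun e _ =>
          hindr e t]
        refine (sum_le_sum hterm).trans ?_
        have hq0 : 0 ≤ q := le_min zero_le_one (mul_nonneg (by positivity)
          (prod_nonneg fun e' _ => by linarith [above_le_one D e' t]))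
        rw [← ENNReal.ofReal_sum_of_nonneg fun e _ => mul_nonneg hq0 (above_nonneg D e t),
          ← mul_sum, show (3 : ℝ≥0∞) = ENNReal.ofReal 3 by simp,
          ← ENNReal.ofReal_mul (by norm_num)]
        exact ENNReal.ofReal_le_ofReal (by rw [mul_comm]; exact load_mul_few_le D N hk t)
    _ = _ := by rw [lintegral_const_mul' _ _ (by simp)]; rfl

/-- A random colouring into `k` classes keeps half of the yardstick. -/
theorem colour_real (N : Finset α) {k : ℕ} (hk : 0 < k) (t : ℝ) :
    (k : ℝ) ^ Fintype.card α * min (load D N t) k ≤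
      2 * ∑ f : α → Fin k, ∑ c : Fin k,
        (1 - ∏ e ∈ N.filter (fun e => f e = c), (1 - above D e t)) := by
  have hk0 : (0 : ℝ) < k := by exact_mod_cast hk
  have hsumc : ∀ c : Fin k, ∑ f : α → Fin k, ∏ e ∈ N.filter (fun e => f e = c), (1 - above D e t)
      = ∏ e : α, ((k : ℝ) - if e ∈ N then above D e t else 0) := by
    intro c
    have e1 : ∀ f : α → Fin k, ∏ e ∈ N.filter (fun e => f e = c), (1 - above D e t) =
        ∏ e : α, (if e ∈ N ∧ f e = c then 1 - above D e t else 1) := fun f => by
      rw [← prod_filter]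
      exact prod_congr (by ext e; simp) fun _ _ => rfl
    rw [sum_congr rfl fun f _ => e1 f,
      ← Fintype.prod_sum (fun e c' => if e ∈ N ∧ c' = c then 1 - above D e t else (1 : ℝ))]
    refine prod_congr rfl fun e _ => ?_
    by_cases he : e ∈ N
    · rw [if_pos he, ← add_sum_erase _ _ (mem_univ c),
        sum_congr rfl fun c' hc' => if_neg fun h => (mem_erase.1 hc').1 h.2,
        if_pos ⟨he, rfl⟩, sum_const, card_erase_of_mem (mem_univ c), card_univ, Fintype.card_fin,
        nsmul_eq_mul, mul_one, Nat.cast_sub (Nat.one_le_iff_ne_zero.2 hk.ne'), Nat.cast_one]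
      ring
    · simp [he]
  have hprod : ∏ e : α, ((k : ℝ) - if e ∈ N then above D e t else 0) ≤
      (k : ℝ) ^ Fintype.card α * Real.exp (-(load D N t / k)) := by
    have e2 : ∑ e : α, -((if e ∈ N then above D e t else 0) / k) = -(load D N t / k) := by
      rw [sum_neg_distrib, ← Finset.sum_div, ← sum_filter, load]
      congr 2
      exact sum_congr (by ext e; simp) fun _ _ => rfl
    rw [← e2, Real.exp_sum, ← card_univ, ← prod_const, ← prod_mul_distrib]
    refine prod_le_prod (fun e _ => ?_) fun e _ => ?_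
    · have h1 := above_le_one D e t
      have hk1 : (1 : ℝ) ≤ k := by exact_mod_cast hk
      split_ifs <;> linarith
    · have h3 := mul_le_mul_of_nonneg_left
        (Real.add_one_le_exp (-((if e ∈ N then above D e t else 0) / k))) hk0.le
      rw [mul_add, mul_one, mul_neg, mul_div_cancel₀ _ hk0.ne'] at h3
      linarith
  have hS : ∑ f : α → Fin k, ∑ c : Fin k,
      (1 - ∏ e ∈ N.filter (fun e => f e = c), (1 - above D e t)) =
      k * ((k : ℝ) ^ Fintype.card α -
        ∏ e : α, ((k : ℝ) - if e ∈ N then above D e t else 0)) := by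
    rw [sum_comm, sum_congr rfl fun c _ => by rw [sum_sub_distrib, hsumc c]]
    simp
    ring
  rw [hS]
  set m := load D N t with hm
  have hm0 : 0 ≤ m := load_nonneg D N t
  set u := m / (k : ℝ) with hu
  have hu0 : 0 ≤ u := div_nonneg hm0 hk0.le
  have hle : min u 1 ≤ 2 * (1 - Real.exp (-u)) := by
    have h1 : Real.exp (-u) ≤ 1 / (1 + u) := by
      rw [Real.exp_neg, one_div]
      exact inv_anti₀ (by linarith) (by linarith [Real.add_one_le_exp u])
    have h2 : min u 1 ≤ 2 * (1 - 1 / (1 + u)) := by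
      rw [one_sub_div (by linarith : (1 + u) ≠ 0), ← mul_div_assoc, le_div_iff₀ (by linarith)]
      rcases le_total u 1 with h | h
      · rw [min_eq_left h]; nlinarith
      · rw [min_eq_right h]; linarith
    linarith
  have hmin : min m (k : ℝ) = k * min u 1 := by
    rw [mul_min_of_nonneg _ _ hk0.le, hu, mul_div_cancel₀ _ hk0.ne', mul_one]
  rw [hmin]
  have hP : (0 : ℝ) ≤ (k : ℝ) ^ Fintype.card α * k := by positivity
  nlinarith [mul_le_mul_of_nonneg_left hle hP, mul_le_mul_of_nonneg_left hprod hk0.le]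

theorem yard_le_colour (N : Finset α) {k : ℕ} (hk : 0 < k) :
    (k : ℝ≥0∞) ^ Fintype.card α * yard D N k ≤
      2 * ∑ f : α → Fin k, ∑ c : Fin k,
        ∫⁻ V, ((N.filter fun e => f e = c).sup V : ℝ≥0) ∂Measure.pi D := by
  set C : (α → Fin k) → Fin k → Finset α := fun f c => N.filter fun e => f e = c
  have hm : ∀ f c, Measurable fun V : α → ℝ≥0 => (C f c).sup V := fun f c =>
    measurable_sup_fun (C f c) (fun e (V : α → ℝ≥0) => V e) fun e => measurable_pi_apply e
  have hanti : ∀ f c, Measurable fun t : ℝ =>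
      Measure.pi D {V : α → ℝ≥0 | t < (((C f c).sup V : ℝ≥0) : ℝ)} := fun f c =>
    Antitone.measurable fun s t hst => measure_mono fun V hV => lt_of_le_of_lt hst hV
  rw [sum_congr rfl fun f _ => sum_congr rfl fun c _ => lintegral_coe_eq (Measure.pi D) _ (hm f c)]
  rw [sum_congr rfl fun f _ => (lintegral_finsetSum _ fun c _ => hanti f c).symm,
    ← lintegral_finsetSum _ (fun f _ => Finset.measurable_fun_sum _ fun c _ => hanti f c),
    ← lintegral_const_mul' 2 _ (by simp), yard,
    ← lintegral_const_mul' _ _ (ENNReal.pow_ne_top (ENNReal.natCast_ne_top k))]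
  refine setLIntegral_mono_ae' measurableSet_Ioi (Filter.Eventually.of_forall fun t ht => ?_)
  have hprob : ∀ f c, Measure.pi D {V : α → ℝ≥0 | t < (((C f c).sup V : ℝ≥0) : ℝ)} =
      ENNReal.ofReal (1 - ∏ e ∈ C f c, (1 - above D e t)) := by
    intro f c
    have hcompl : {V : α → ℝ≥0 | t < (((C f c).sup V : ℝ≥0) : ℝ)}ᶜ =
        Set.pi Set.univ fun e => if e ∈ (∅ : Finset α) then {v : ℝ≥0 | t < (v : ℝ)}
          else if e ∈ C f c then {v : ℝ≥0 | (v : ℝ) ≤ t} else Set.univ := by
      ext V
      have hiff : (((C f c).sup V : ℝ≥0) : ℝ) ≤ t ↔ ∀ e ∈ C f c, (V e : ℝ) ≤ t := by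
        simp only [← Real.le_toNNReal_iff_coe_le (le_of_lt ht), Finset.sup_le_iff]
      rw [Set.mem_compl_iff, Set.mem_ofPred_eq, not_lt, hiff, Set.mem_univ_pi]
      refine forall_congr' fun e => ?_
      by_cases he : e ∈ C f c <;> simp [he]
    have h1 := measure_exact D (C f c) ∅ (empty_subset _) t
    rw [← hcompl, prod_empty, one_mul, sdiff_empty,
      measure_compl (measurableSet_lt measurable_const (hm f c).coe_nnreal_real)
        (measure_ne_top _ _), measure_univ] at h1
    have h0 : 0 ≤ ∏ e ∈ C f c, (1 - above D e t) :=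
      prod_nonneg fun e _ => sub_nonneg.2 (above_le_one D e t)
    rw [ENNReal.ofReal_sub 1 h0, ENNReal.ofReal_one, ← h1,
      ENNReal.sub_sub_cancel ENNReal.one_ne_top prob_le_one]
  have hnn : ∀ f c, 0 ≤ 1 - ∏ e ∈ C f c, (1 - above D e t) := fun f c =>
    sub_nonneg.2 (prod_le_one (fun e _ => sub_nonneg.2 (above_le_one D e t))
      fun e _ => sub_le_self _ (above_nonneg D e t))
  simp only [hprob]
  rw [sum_congr rfl fun f _ => (ENNReal.ofReal_sum_of_nonneg fun c _ => hnn f c).symm,
    ← ENNReal.ofReal_sum_of_nonneg fun f _ => sum_nonneg fun c _ => hnn f c,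
    show (2 : ℝ≥0∞) = ENNReal.ofReal 2 by simp, ← ENNReal.ofReal_mul (by norm_num),
    ← ENNReal.ofReal_natCast k, ← ENNReal.ofReal_pow (Nat.cast_nonneg _),
    ← ENNReal.ofReal_mul (by positivity)]
  exact ENNReal.ofReal_le_ofReal (colour_real D N hk t)

end Vale.Agent.P331
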