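import Vale.Agent.P331.Greedy
import Vale.Agent.P331.Tail

/-!
# P331: the two kinds of rules and the comparison with the optimum
-/

open Finset MeasureTheory
open scoped NNReal ENNReal Classical

namespace Vale.Agent.P331

variable {α : Type} [Fintype α]

/-- The elements which are not loops. -/
noncomputable def live (M : Matroid α) : Finset α :=
  univ.filter fun e => M.Indep ({e} : Set α)

/-- A class of live elements. -/
noncomputable def cls (M : Matroid α) {k : ℕ} (f : α → Fin k) (c : Fin k) : Finset α :=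
  (live M).filter fun e => f e = c

/-- Feasibility for the colouring rule: live elements with distinct colours. -/
def ColourOk (M : Matroid α) {k : ℕ} (f : α → Fin k) (A : Finset α) : Prop :=
  (∀ e ∈ A, M.Indep ({e} : Set α)) ∧ Set.InjOn f (A : Set α)

/-- The colouring rule: in every class the first value passing the largest sample. -/
noncomputable def colourRule (M : Matroid α) {k : ℕ} (f : α → Fin k) (b : Bool) (S : α → ℝ≥0) :
    List (α × ℝ≥0) → α → ℝ≥0 → Bool :=
  gRule (ColourOk M f) fun e v => qual b (cls M f (f e)) S v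

/-- The level rule: greedily the values from the threshold `kth / 2 ^ j` on. -/
noncomputable def levelRule (M : Matroid α) (k j : ℕ) (S : α → ℝ≥0) :
    List (α × ℝ≥0) → α → ℝ≥0 → Bool :=
  gRule (fun A : Finset α => M.Indep (A : Set α)) fun _ v => kth (live M) k S / 2 ^ j ≤ v

/-- What the level rule is certain to collect. -/
noncomputable def levelVal (M : Matroid α) (k j : ℕ) (z : (α → ℝ≥0) × (α → ℝ≥0)) : ℝ≥0 :=
  ((univ : Finset (Finset α)).filter fun I : Finset α => M.Indep (I : Set α)).sup fun I =>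
    ∑ e ∈ I, if kth (live M) k z.1 / 2 ^ j ≤ z.2 e then kth (live M) k z.1 / 2 ^ j else 0

theorem colour_indep (M : Matroid α) {k : ℕ}
    (hgirth : ∀ A : Finset α, #A ≤ k → (∀ e ∈ A, M.Indep ({e} : Set α)) → M.Indep (A : Set α))
    (f : α → Fin k) (b : Bool) (S V : α → ℝ≥0) (l : List α) :
    M.Indep (accepted (colourRule M f b S) V [] l : Set α) := by
  rw [colourRule, accepted_gRule]
  have h := (greedy_spec (ColourOk M f) (fun e v => qual b (cls M f (f e)) S v)
    ⟨by simp, by simp⟩ (fun A B hAB hB =>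
      ⟨fun e he => hB.1 e (hAB he), hB.2.mono (coe_subset.2 hAB)⟩) V l).1
  refine hgirth _ ?_ h.1
  calc #(greedy (ColourOk M f) (fun e v => qual b (cls M f (f e)) S v)
        (l.map fun e => (e, V e))) ≤ #(univ : Finset (Fin k)) :=
        card_le_card_of_injOn f (fun e _ => mem_univ _) h.2
    _ = k := by simp

theorem level_indep (M : Matroid α) (k j : ℕ) (S V : α → ℝ≥0) (l : List α) :
    M.Indep (accepted (levelRule M k j S) V [] l : Set α) := by
  rw [levelRule, accepted_gRule]
  exact (greedy_spec (fun A : Finset α => M.Indep (A : Set α))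
    (fun _ v => kth (live M) k S / 2 ^ j ≤ v) (by simp)
    (fun A B hAB hB => hB.subset (coe_subset.2 hAB)) V l).1

theorem colour_gain (M : Matroid α) {k : ℕ} (f : α → Fin k) (b : Bool) (S V : α → ℝ≥0)
    (l : List α) (hl : ∀ e, e ∈ l) :
    ∑ c, win b (cls M f c) (S, V) ≤ ∑ e ∈ accepted (colourRule M f b S) V [] l, V e := by
  rw [colourRule, accepted_gRule]
  obtain ⟨h1, h2, h3⟩ := greedy_spec (ColourOk M f) (fun e v => qual b (cls M f (f e)) S v)
    ⟨by simp, by simp⟩ (fun A B hAB hB =>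
      ⟨fun e he => hB.1 e (hAB he), hB.2.mono (coe_subset.2 hAB)⟩) V l
  set G := greedy (ColourOk M f) (fun e v => qual b (cls M f (f e)) S v)
    (l.map fun e => (e, V e))
  rw [← sum_fiberwise G f V]
  refine sum_le_sum fun c _ => ?_
  by_cases hw : (∃ e ∈ cls M f c, qual b (cls M f c) S (V e)) ∧ ∀ e ∈ cls M f c,
      qual b (cls M f c) S (V e) → (cls M f c).sup (fun e => max (S e) (V e)) ≤ V e
  swap
  · unfold win; rw [if_neg hw]; exact zero_le
  unfold win; rw [if_pos hw]
  obtain ⟨⟨e, he, hq⟩, hall⟩ := hw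
  obtain ⟨heN, hfe⟩ := mem_filter.1 he
  obtain ⟨e', he'G, hfe'⟩ : ∃ e' ∈ G, f e' = c := by
    rcases h3 e (hl e) (hfe.symm ▸ hq) with h | h
    · exact ⟨e, h, hfe⟩
    · by_contra hno
      push Not at hno
      refine h ⟨fun x hx => ?_, ?_⟩
      · rcases mem_insert.1 hx with rfl | hx
        · exact (mem_filter.1 heN).2
        · exact h1.1 x hx
      · rw [coe_insert, Set.injOn_insert fun hm => hno e hm hfe]
        exact ⟨h1.2, fun ⟨x, hx, hx'⟩ => hno x hx (hx'.trans hfe)⟩
  have hcls : e' ∈ cls M f c := mem_filter.2 ⟨mem_filter.2 ⟨mem_univ _, h1.1 e' he'G⟩, hfe'⟩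
  have hq' := h2 e' he'G
  rw [hfe'] at hq'
  exact (hall e' hcls hq').trans
    (single_le_sum (fun x _ => zero_le) (mem_filter.2 ⟨he'G, hfe'⟩))

theorem level_gain (M : Matroid α) (k j : ℕ) (S V : α → ℝ≥0) (l : List α) (hl : ∀ e, e ∈ l) :
    levelVal M k j (S, V) ≤ ∑ e ∈ accepted (levelRule M k j S) V [] l, V e := by
  rw [levelRule, accepted_gRule]
  set θ := kth (live M) k S / 2 ^ j with hθ
  obtain ⟨h1, h2, h3⟩ := greedy_spec (fun A : Finset α => M.Indep (A : Set α))
    (fun _ v => θ ≤ v) (by simp) (fun A B hAB hB => hB.subset (coe_subset.2 hAB)) V l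
  set G := greedy (fun A : Finset α => M.Indep (A : Set α)) (fun _ v => θ ≤ v)
    (l.map fun e => (e, V e))
  refine Finset.sup_le fun I hI => ?_
  have hI' : M.Indep ((I.filter fun e => θ ≤ V e : Finset α) : Set α) :=
    ((mem_filter.1 hI).2).subset (coe_subset.2 (filter_subset _ _))
  have hcard : #(I.filter fun e => θ ≤ V e) ≤ #G := by
    by_contra hlt
    obtain ⟨x, hx, hind⟩ := h1.augment hI'
      (by simp only [Set.encard_coe_eq_coe_finsetCard]; exact_mod_cast not_le.1 hlt)
    obtain ⟨hxI, hxG⟩ := hx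
    rcases h3 x (hl x) (mem_filter.1 (mem_coe.1 hxI)).2 with h | h
    · exact hxG (mem_coe.2 h)
    · exact h (by rwa [coe_insert])
  simp only [← hθ]
  rw [← sum_filter, sum_const, nsmul_eq_mul]
  calc (#(I.filter fun e => θ ≤ V e) : ℝ≥0) * θ ≤ #G * θ :=
        mul_le_mul_of_nonneg_right (Nat.cast_le.2 hcard) zero_le
    _ = ∑ _e ∈ G, θ := by rw [sum_const, nsmul_eq_mul]
    _ ≤ _ := sum_le_sum fun e he => h2 e he

theorem min_le_levels (v T : ℝ≥0) : ∀ L : ℕ,
    min v T ≤ T / 2 ^ L + ∑ j ∈ range (L + 1), if T / 2 ^ j ≤ v then T / 2 ^ j else 0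
  | 0 => by simpa using le_trans (min_le_right v T) le_self_add
  | L + 1 => by
      rw [sum_range_succ (n := L + 1)]
      by_cases h : T / 2 ^ (L + 1) ≤ v
      · rw [if_pos h]
        refine (min_le_levels v T L).trans (le_of_eq ?_)
        rw [pow_succ]
        field_simp
        ring
      · rw [if_neg h]
        exact (min_le_left v T).trans ((not_le.1 h).le.trans le_self_add)

/-- The pointwise comparison with the optimum. -/
theorem opt_le_parts (M : Matroid α) (k r L : ℕ)
    (hr : ∀ I : Finset α, M.Indep (I : Set α) → #I ≤ r) (hL : r ≤ k * 2 ^ L)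
    (z : (α → ℝ≥0) × (α → ℝ≥0)) :
    opt M z.2 ≤ ((∑ e ∈ live M, (z.2 e - kth (live M) k z.1) : ℝ≥0) : ℝ≥0∞) +
      (k : ℝ≥0∞) * (kth (live M) k z.1 : ℝ≥0∞) +
      ∑ j ∈ range (L + 1), (levelVal M k j z : ℝ≥0∞) := by
  unfold opt
  refine Finset.sup_le fun I hI => ?_
  have hind := (mem_filter.1 hI).2
  have hsub : I ⊆ live M := fun e he =>
    mem_filter.2 ⟨mem_univ _, hind.subset (Set.singleton_subset_iff.2 (mem_coe.2 he))⟩
  set T := kth (live M) k z.1 with hT
  have key : ∑ e ∈ I, z.2 e ≤ ∑ e ∈ live M, (z.2 e - T) + (k : ℝ≥0) * T +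
      ∑ j ∈ range (L + 1), levelVal M k j z := by
    have h1 : ∀ e ∈ I, z.2 e ≤ (z.2 e - T) + (T / 2 ^ L +
        ∑ j ∈ range (L + 1), if T / 2 ^ j ≤ z.2 e then T / 2 ^ j else 0) := by
      intro e _
      refine le_trans ?_ (add_le_add_right (min_le_levels (z.2 e) T L) _)
      rcases le_total (z.2 e) T with h | h
      · rw [min_eq_left h]; exact le_add_self
      · rw [min_eq_right h, tsub_add_cancel_of_le h]
    have h2 : (#I : ℝ≥0) * (T / 2 ^ L) ≤ (k : ℝ≥0) * T := by
      calc (#I : ℝ≥0) * (T / 2 ^ L) ≤ ((k * 2 ^ L : ℕ) : ℝ≥0) * (T / 2 ^ L) :=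
            mul_le_mul_of_nonneg_right (Nat.cast_le.2 ((hr I hind).trans hL)) zero_le
        _ = (k : ℝ≥0) * T := by push_cast; field_simp
    refine (sum_le_sum h1).trans ?_
    rw [sum_add_distrib, sum_add_distrib, sum_const, nsmul_eq_mul, sum_comm, ← add_assoc]
    refine add_le_add (add_le_add (sum_le_sum_of_subset hsub) h2) (sum_le_sum fun j _ => ?_)
    exact le_sup (f := fun I : Finset α => ∑ e ∈ I,
      if kth (live M) k z.1 / 2 ^ j ≤ z.2 e then kth (live M) k z.1 / 2 ^ j else 0) hI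
  have h3 := ENNReal.coe_le_coe.2 key
  rw [ENNReal.coe_add, ENNReal.coe_add, ENNReal.coe_mul, ENNReal.coe_natCast,
    ENNReal.ofNNReal_finsetSum (s := range (L + 1))] at h3
  exact h3

theorem measurable_levelVal (M : Matroid α) (k j : ℕ) : Measurable (levelVal M k j) := by
  have hk : Measurable fun z : (α → ℝ≥0) × (α → ℝ≥0) => kth (live M) k z.1 / 2 ^ j :=
    ((measurable_kth (live M) k).comp measurable_fst).div_const _
  refine measurable_sup_fun _ (fun (I : Finset α) (z : (α → ℝ≥0) × (α → ℝ≥0)) => ∑ e ∈ I,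
    if kth (live M) k z.1 / 2 ^ j ≤ z.2 e then kth (live M) k z.1 / 2 ^ j else 0) fun I => ?_
  exact Finset.measurable_fun_sum _ fun e _ => Measurable.ite
    (measurableSet_le hk
      ((measurable_pi_apply e).comp measurable_snd)) hk measurable_const

variable (D : α → Measure ℝ≥0) [∀ e, IsProbabilityMeasure (D e)]

/-- The optimum against the yardstick and the levels. -/
theorem lintegral_opt_le (M : Matroid α) {k : ℕ} (hk : 0 < k) (r L : ℕ)
    (hr : ∀ I : Finset α, M.Indep (I : Set α) → #I ≤ r) (hL : r ≤ k * 2 ^ L) :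
    ∫⁻ z, opt M z.2 ∂law D ≤ 4 * yard D (live M) k +
      ∑ j ∈ range (L + 1), ∫⁻ z, (levelVal M k j z : ℝ≥0∞) ∂law D := by
  have hB : ∀ j, Measurable fun z => (levelVal M k j z : ℝ≥0∞) := fun j =>
    measurable_coe_nnreal_ennreal.comp (measurable_levelVal M k j)
  have hT : Measurable fun z : (α → ℝ≥0) × (α → ℝ≥0) =>
      (k : ℝ≥0∞) * (kth (live M) k z.1 : ℝ≥0∞) :=
    (measurable_coe_nnreal_ennreal.comp
      ((measurable_kth (live M) k).comp measurable_fst)).const_mul _
  refine (lintegral_mono fun z => opt_le_parts M k r L hr hL z).trans ?_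
  rw [lintegral_add_right _ (Finset.measurable_fun_sum _ fun j _ => hB j),
    lintegral_add_right _ hT, lintegral_finsetSum _ fun j _ => hB j]
  have e : (4 : ℝ≥0∞) = 3 + 1 := by norm_num
  refine add_le_add ?_ le_rfl
  rw [e, add_mul, one_mul]
  refine add_le_add (lintegral_excess_le D (live M) hk) ?_
  rw [lintegral_const_mul' _ _ (ENNReal.natCast_ne_top k)]
  refine le_trans (le_of_eq ?_) (lintegral_kth_le D (live M) hk)
  congr 1
  have hm : Measurable fun S : α → ℝ≥0 => (kth (live M) k S : ℝ≥0∞) :=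
    measurable_coe_nnreal_ennreal.comp (measurable_kth (live M) k)
  exact (measurePreserving_fst (μ := Measure.pi D) (ν := Measure.pi D)).lintegral_comp hm

/-- The colouring rules collect a sixteenth of the yardstick on average. -/
theorem yard_le_colour_rules (M : Matroid α) {k : ℕ} (hk : 0 < k) :
    (2 * (k : ℝ≥0∞) ^ Fintype.card α) * yard D (live M) k ≤
      16 * ∑ f : α → Fin k, ∑ b : Bool,
        ∫⁻ z, ((∑ c, win b (cls M f c) z : ℝ≥0) : ℝ≥0∞) ∂law D := by
  have hw : ∀ b (f : α → Fin k) c, Measurable fun z => (win b (cls M f c) z : ℝ≥0∞) :=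
    fun b f c => measurable_coe_nnreal_ennreal.comp (measurable_win b _)
  have h1 : ∀ (f : α → Fin k), ∑ c, ∫⁻ V, ((cls M f c).sup V : ℝ≥0) ∂Measure.pi D ≤
      4 * ∑ b : Bool, ∫⁻ z, ((∑ c, win b (cls M f c) z : ℝ≥0) : ℝ≥0∞) ∂law D := by
    intro f
    have e : ∀ b : Bool, ∫⁻ z, ((∑ c, win b (cls M f c) z : ℝ≥0) : ℝ≥0∞) ∂law D =
        ∑ c, ∫⁻ z, (win b (cls M f c) z : ℝ≥0∞) ∂law D := fun b => by
      simp only [ENNReal.ofNNReal_finsetSum]
      exact lintegral_finsetSum _ fun c _ => hw b f c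
    rw [Fintype.sum_bool, e, e, ← sum_add_distrib, mul_sum]
    refine sum_le_sum fun c _ => le_trans (le_of_eq ?_) (lintegral_sup_le D (cls M f c))
    have hm : Measurable fun V : α → ℝ≥0 => (((cls M f c).sup V : ℝ≥0) : ℝ≥0∞) :=
      measurable_coe_nnreal_ennreal.comp
        (measurable_sup_fun _ (fun e (V : α → ℝ≥0) => V e) fun e => measurable_pi_apply e)
    exact ((measurePreserving_snd (μ := Measure.pi D)
      (ν := Measure.pi D)).lintegral_comp hm).symm
  calc (2 * (k : ℝ≥0∞) ^ Fintype.card α) * yard D (live M) k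
      = 2 * ((k : ℝ≥0∞) ^ Fintype.card α * yard D (live M) k) := by ring
    _ ≤ 2 * (2 * ∑ f : α → Fin k, ∑ c : Fin k,
          ∫⁻ V, ((cls M f c).sup V : ℝ≥0) ∂Measure.pi D) := by
        exact mul_le_mul_right (yard_le_colour D (live M) hk) _
    _ ≤ 2 * (2 * ∑ f : α → Fin k, 4 * ∑ b : Bool,
          ∫⁻ z, ((∑ c, win b (cls M f c) z : ℝ≥0) : ℝ≥0∞) ∂law D) := by
        gcongr with f
        exact h1 f
    _ = _ := by rw [← mul_sum]; ring

end Vale.Agent.P331
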