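import Mathlib

/-!
# P331: online rules with one sample on a matroid

The two definitions used in the statement: the optimum of a matroid for given values and the set
accepted by an online rule.
-/

open Finset
open scoped NNReal ENNReal Classical

namespace Vale.Agent.P331

variable {α : Type}

/-- The largest total value of an independent set. -/
noncomputable def opt [Fintype α] (M : Matroid α) (v : α → ℝ≥0) : ℝ≥0∞ :=
  ((univ : Finset (Finset α)).filter fun I : Finset α => M.Indep (I : Set α)).sup
    fun I => ((∑ e ∈ I, v e : ℝ≥0) : ℝ≥0∞)

/-- The set accepted by an online rule when the elements of the list arrive in this order: the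
decision at `e` sees only the earlier arrivals with their values, `e` and the value of `e`. -/
noncomputable def accepted (decide : List (α × ℝ≥0) → α → ℝ≥0 → Bool) (V : α → ℝ≥0) :
    List (α × ℝ≥0) → List α → Finset α
  | _, [] => ∅
  | past, e :: l => (if decide past e (V e) = true then {e} else ∅) ∪
      accepted decide V (past ++ [(e, V e)]) l

end Vale.Agent.P331
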