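import Vale.Agent.P331.Defs

/-!
# P331: greedy online rules
-/

open Finset
open scoped NNReal ENNReal Classical

namespace Vale.Agent.P331

variable {α : Type}

/-- One greedy step. -/
noncomputable def gStep (P : Finset α → Prop) (q : α → ℝ≥0 → Prop) (A : Finset α) (x : α × ℝ≥0) :
    Finset α :=
  if q x.1 x.2 ∧ P (insert x.1 A) then insert x.1 A else A

/-- The greedy set of a history. -/
noncomputable def greedy (P : Finset α → Prop) (q : α → ℝ≥0 → Prop) (past : List (α × ℝ≥0)) :
    Finset α :=
  past.foldl (gStep P q) ∅

/-- The greedy rule. -/
noncomputable def gRule (P : Finset α → Prop) (q : α → ℝ≥0 → Prop) (past : List (α × ℝ≥0)) (e : α)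
    (v : ℝ≥0) : Bool :=
  decide (q e v ∧ P (insert e (greedy P q past)))

theorem greedy_concat (P : Finset α → Prop) (q : α → ℝ≥0 → Prop) (past : List (α × ℝ≥0))
    (x : α × ℝ≥0) : greedy P q (past ++ [x]) = gStep P q (greedy P q past) x := by
  simp [greedy, List.foldl_append]

/-- The greedy rule accepts exactly the greedy set. -/
theorem greedy_union_accepted (P : Finset α → Prop) (q : α → ℝ≥0 → Prop) (V : α → ℝ≥0) :
    ∀ (l : List α) (past : List (α × ℝ≥0)),
      greedy P q past ∪ accepted (gRule P q) V past l =
        greedy P q (past ++ l.map fun e => (e, V e)) := by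
  intro l
  induction l with
  | nil => intro past; simp [accepted]
  | cons e l ih =>
      intro past
      rw [accepted, List.map_cons,
        show past ++ (e, V e) :: (l.map fun e => (e, V e)) =
          (past ++ [(e, V e)]) ++ l.map fun e => (e, V e) by simp, ← ih,
        ← Finset.union_assoc, greedy_concat, gStep]
      congr 1
      simp only [gRule, decide_eq_true_eq]
      split_ifs
      · rw [Finset.union_comm, ← Finset.insert_eq]
      · rw [Finset.union_empty]

theorem accepted_gRule (P : Finset α → Prop) (q : α → ℝ≥0 → Prop) (V : α → ℝ≥0) (l : List α) :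
    accepted (gRule P q) V [] l = greedy P q (l.map fun e => (e, V e)) := by
  simpa [greedy] using greedy_union_accepted P q V l []

/-- The greedy set is feasible, qualifies, and cannot be extended by a qualifying element. -/
theorem greedy_spec (P : Finset α → Prop) (q : α → ℝ≥0 → Prop) (h0 : P ∅)
    (hP : ∀ A B, A ⊆ B → P B → P A) (V : α → ℝ≥0) :
    ∀ l : List α,
      P (greedy P q (l.map fun e => (e, V e))) ∧
      (∀ e ∈ greedy P q (l.map fun e => (e, V e)), q e (V e)) ∧
      ∀ e ∈ l, q e (V e) → e ∈ greedy P q (l.map fun e => (e, V e)) ∨
        ¬ P (insert e (greedy P q (l.map fun e => (e, V e)))) := by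
  intro l
  induction l using List.reverseRecOn with
  | nil => simpa [greedy] using h0
  | append_singleton l a ih =>
      obtain ⟨h1, h2, h3⟩ := ih
      rw [List.map_append, List.map_singleton, greedy_concat, gStep]
      set G := greedy P q (l.map fun e => (e, V e))
      split_ifs with h
      · refine ⟨h.2, fun e he => ?_, fun e he hq => ?_⟩
        · rcases Finset.mem_insert.1 he with rfl | he
          · exact h.1
          · exact h2 e he
        · rcases List.mem_append.1 he with he | he
          · rcases h3 e he hq with h4 | h4
            · exact Or.inl (Finset.mem_insert_of_mem h4)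
            · exact Or.inr fun h5 => h4 (hP _ _ (Finset.insert_subset_insert _
                (Finset.subset_insert _ _)) h5)
          · rw [List.mem_singleton] at he
            exact Or.inl (he ▸ Finset.mem_insert_self _ _)
      · refine ⟨h1, h2, fun e he hq => ?_⟩
        rcases List.mem_append.1 he with he | he
        · exact h3 e he hq
        · rw [List.mem_singleton] at he
          subst he
          exact Or.inr fun h5 => h ⟨hq, h5⟩

/-- A greedy rule whose test is measurable accepts measurably. -/
theorem measurableSet_greedy {Z : Type*} [MeasurableSpace Z] [Finite α] (P : Finset α → Prop)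
    (q : Z → α → ℝ≥0 → Prop) (V : Z → α → ℝ≥0)
    (hq : ∀ e, MeasurableSet {z | q z e (V z e)}) :
    ∀ (l : List α) (A : Finset α),
      MeasurableSet {z | greedy P (q z) (l.map fun e => (e, V z e)) = A} := by
  intro l
  induction l using List.reverseRecOn with
  | nil =>
      intro A
      show MeasurableSet {_z : Z | (∅ : Finset α) = A}
      exact MeasurableSet.const _
  | append_singleton l a ih =>
      intro A
      have e : {z | greedy P (q z) ((l ++ [a]).map fun e => (e, V z e)) = A} =
          ⋃ B : Finset α, {z | greedy P (q z) (l.map fun e => (e, V z e)) = B} ∩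
            (if P (insert a B) then
              ({z | q z a (V z a)} ∩ {_z | insert a B = A}) ∪
                ({z | q z a (V z a)}ᶜ ∩ {_z | B = A})
            else {_z | B = A}) := by
        ext z
        simp only [List.map_append, List.map_singleton, greedy_concat, gStep, Set.mem_ofPred_eq,
          Set.mem_iUnion, Set.mem_inter_iff, exists_eq_left']
        by_cases h1 : q z a (V z a) <;>
          by_cases h2 : P (insert a (greedy P (q z) (l.map fun e => (e, V z e)))) <;>
          simp [h1, h2]
      rw [e]
      refine MeasurableSet.iUnion fun B => (ih B).inter ?_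
      split_ifs
      · exact ((hq a).inter (MeasurableSet.const _)).union
          ((hq a).compl.inter (MeasurableSet.const _))
      · exact MeasurableSet.const _

theorem measurableSet_accepted {Z : Type*} [MeasurableSpace Z] [Finite α] (P : Finset α → Prop)
    (q : Z → α → ℝ≥0 → Prop) (V : Z → α → ℝ≥0)
    (hq : ∀ e, MeasurableSet {z | q z e (V z e)}) (l : List α) (e : α) :
    MeasurableSet {z | e ∈ accepted (gRule P (q z)) (V z) [] l} := by
  have h : {z | e ∈ accepted (gRule P (q z)) (V z) [] l} =
      ⋃ B : Finset α, {z | greedy P (q z) (l.map fun e => (e, V z e)) = B} ∩ {_z | e ∈ B} := by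
    ext z; simp [accepted_gRule]
  rw [h]
  exact MeasurableSet.iUnion fun B =>
    (measurableSet_greedy P q V hq l B).inter (MeasurableSet.const _)

end Vale.Agent.P331
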