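import Vale.Agent.P331.Defs

/-!
# P331: one sample on one class of elements

Exchanging sample and value at every element independently shows that the threshold given by the
largest sample keeps an eighth of the expected largest value, with a coin deciding ties.
-/

open Finset MeasureTheory
open scoped NNReal ENNReal Classical

namespace Vale.Agent.P331

variable {α : Type}

/-- The test of a class: strictly above or at least the largest sample. -/
def qual (b : Bool) (C : Finset α) (S : α → ℝ≥0) (v : ℝ≥0) : Prop :=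
  if b = true then C.sup S < v else C.sup S ≤ v

/-- The largest of all values and samples of a class, if every qualifying value reaches it. -/
noncomputable def win (b : Bool) (C : Finset α) (z : (α → ℝ≥0) × (α → ℝ≥0)) : ℝ≥0 :=
  if (∃ e ∈ C, qual b C z.1 (z.2 e)) ∧
      ∀ e ∈ C, qual b C z.1 (z.2 e) → C.sup (fun e => max (z.1 e) (z.2 e)) ≤ z.2 e
  then C.sup (fun e => max (z.1 e) (z.2 e)) else 0

/-- Exchange samples and values where `s` is true. -/
def swapAt (s : α → Bool) (z : (α → ℝ≥0) × (α → ℝ≥0)) : (α → ℝ≥0) × (α → ℝ≥0) :=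
  (fun e => if s e = true then z.2 e else z.1 e, fun e => if s e = true then z.1 e else z.2 e)

theorem max_swapAt (s : α → Bool) (z : (α → ℝ≥0) × (α → ℝ≥0)) (e : α) :
    max ((swapAt s z).1 e) ((swapAt s z).2 e) = max (z.1 e) (z.2 e) := by
  by_cases hs : s e = true <;> simp [swapAt, hs, max_comm]

theorem measurable_sup_fun {ι Z : Type*} [MeasurableSpace Z] (C : Finset ι) (g : ι → Z → ℝ≥0)
    (hg : ∀ e, Measurable (g e)) : Measurable fun z => C.sup fun e => g e z := by
  induction C using Finset.induction_on with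
  | empty => simp
  | insert a s ha ih => simpa [Finset.sup_insert] using (hg a).max ih

theorem measurableSet_qual (b : Bool) (C : Finset α) (e : α) :
    MeasurableSet {z : (α → ℝ≥0) × (α → ℝ≥0) | qual b C z.1 (z.2 e)} := by
  have h1 : Measurable fun z : (α → ℝ≥0) × (α → ℝ≥0) => C.sup z.1 :=
    measurable_sup_fun C (fun e (z : (α → ℝ≥0) × (α → ℝ≥0)) => z.1 e) fun e => (measurable_pi_apply e).comp measurable_fst
  have h2 : Measurable fun z : (α → ℝ≥0) × (α → ℝ≥0) => z.2 e :=
    (measurable_pi_apply e).comp measurable_snd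
  cases b
  · simpa [qual] using measurableSet_le h1 h2
  · simpa [qual] using measurableSet_lt h1 h2

theorem measurable_win [Finite α] (b : Bool) (C : Finset α) : Measurable (win b C) := by
  have hm : Measurable fun z : (α → ℝ≥0) × (α → ℝ≥0) => C.sup fun e => max (z.1 e) (z.2 e) :=
    measurable_sup_fun C (fun e (z : (α → ℝ≥0) × (α → ℝ≥0)) => max (z.1 e) (z.2 e)) fun e =>
      ((measurable_pi_apply e).comp measurable_fst).max ((measurable_pi_apply e).comp measurable_snd)
  refine Measurable.ite ?_ hm measurable_const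
  rw [Set.ofPred_and]
  refine MeasurableSet.inter ?_ ?_
  · simp only [Set.ofPred_exists]
    exact MeasurableSet.iUnion fun e => (MeasurableSet.const _).inter (measurableSet_qual b C e)
  · simp only [Set.ofPred_forall]
    exact MeasurableSet.iInter fun e => MeasurableSet.iInter fun _ =>
      (measurableSet_qual b C e).himp
        (measurableSet_le hm.coe_nnreal_real
          ((measurable_pi_apply e).comp measurable_snd).coe_nnreal_real)

theorem card_two_bits_le [Fintype α] {e1 e2 : α} {b1 b2 : Bool} (h : e1 = e2 → b1 = b2) :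
    Fintype.card (α → Bool) ≤
      4 * #(univ.filter fun s : α → Bool => s e1 = b1 ∧ s e2 = b2) := by
  set T := univ.filter fun s : α → Bool => s e1 = b1 ∧ s e2 = b2
  have hsub : (univ : Finset (α → Bool)) ⊆ (T ×ˢ (univ : Finset (Bool × Bool))).image
      fun p => Function.update (Function.update p.1 e1 p.2.1) e2 p.2.2 := by
    intro s _
    refine mem_image.2 ⟨(Function.update (Function.update s e2 b2) e1 b1, (s e1, s e2)),
      mem_product.2 ⟨mem_filter.2 ⟨mem_univ _, by simp, ?_⟩, mem_univ _⟩, ?_⟩
    · by_cases he : e2 = e1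
      · subst he; simp [h rfl]
      · simp [he]
    · funext e
      by_cases he2 : e = e2
      · subst he2; simp
      · by_cases he1 : e = e1
        · subst he1; simp [he2]
        · simp [he1, he2]
  have := (card_le_card hsub).trans card_image_le
  rw [card_product, card_univ, card_univ] at this
  simpa [mul_comm] using this

/-- The exchange argument for one configuration. -/
theorem swap_win_le [Fintype α] (C : Finset α) (z : (α → ℝ≥0) × (α → ℝ≥0)) :
    (Fintype.card (α → Bool) : ℝ≥0) * C.sup (fun e => max (z.1 e) (z.2 e)) ≤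
      4 * ∑ s : α → Bool, (win true C (swapAt s z) + win false C (swapAt s z)) := by
  rcases C.eq_empty_or_nonempty with rfl | hC
  · simp
  set mx : α → ℝ≥0 := fun e => max (z.1 e) (z.2 e) with hmx
  obtain ⟨e1, he1, hM⟩ := exists_mem_eq_sup C hC mx
  -- the value above, the sample below
  let up : α → Bool := fun e => decide (z.2 e < z.1 e)
  have hup : ∀ (s : α → Bool) e, s e = up e →
      (swapAt s z).2 e = mx e ∧ (swapAt s z).1 e = min (z.1 e) (z.2 e) := by
    intro s e hs
    by_cases hlt : z.2 e < z.1 e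
    · simp [swapAt, hs, up, hlt, hmx, max_eq_left hlt.le, min_eq_right hlt.le]
    · simp [swapAt, hs, up, hlt, hmx, max_eq_right (not_lt.1 hlt), min_eq_left (not_lt.1 hlt)]
  have hdown : ∀ (s : α → Bool) e, s e = !up e → (swapAt s z).1 e = mx e := by
    intro s e hs
    by_cases hlt : z.2 e < z.1 e
    · simp [swapAt, hs, up, hlt, hmx, max_eq_left hlt.le]
    · simp [swapAt, hs, up, hlt, hmx, max_eq_right (not_lt.1 hlt)]
  set y := max (min (z.1 e1) (z.2 e1)) ((C.erase e1).sup mx) with hy
  have hyM : y ≤ mx e1 := max_le min_le_max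
    (Finset.sup_le fun e he => hM ▸ le_sup (f := mx) (mem_of_mem_erase he))
  obtain ⟨e2, b2, hcons, he2C, hw⟩ : ∃ e2 b2, (e1 = e2 → up e1 = b2) ∧ e2 ∈ C ∧
      ∀ s : α → Bool, s e1 = up e1 → s e2 = b2 → (swapAt s z).1 e2 = y := by
    rcases le_total ((C.erase e1).sup mx) (min (z.1 e1) (z.2 e1)) with hle | hle
    · exact ⟨e1, up e1, fun _ => rfl, he1,
        fun s hs _ => by rw [(hup s e1 hs).2, hy, max_eq_left hle]⟩
    · rcases (C.erase e1).eq_empty_or_nonempty with h0 | hne
      · exact ⟨e1, up e1, fun _ => rfl, he1, fun s hs _ => by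
          rw [(hup s e1 hs).2, hy, h0]; simp⟩
      obtain ⟨e2, he2, hsup⟩ := exists_mem_eq_sup (C.erase e1) hne mx
      exact ⟨e2, !up e2, fun h => absurd h.symm (mem_erase.1 he2).1, mem_of_mem_erase he2,
        fun s _ hs => by rw [hdown s e2 hs, hy, max_eq_right hle, hsup]⟩
  set T := univ.filter fun s : α → Bool => s e1 = up e1 ∧ s e2 = b2 with hT
  have hgood : ∀ s ∈ T, mx e1 ≤ win true C (swapAt s z) + win false C (swapAt s z) := by
    intro s hs
    obtain ⟨hs1, hs2⟩ := (mem_filter.1 hs).2
    have hmax : C.sup (fun e => max ((swapAt s z).1 e) ((swapAt s z).2 e)) = mx e1 := by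
      simp only [max_swapAt]; exact hM
    have hother : ∀ e ∈ C, e ≠ e1 → mx e ≤ y := fun e he hne =>
      le_trans (le_sup (f := mx) (mem_erase.2 ⟨hne, he⟩)) (le_max_right _ _)
    have hS : C.sup (swapAt s z).1 = y := by
      refine le_antisymm (Finset.sup_le fun e he => ?_) ?_
      · by_cases hne : e = e1
        · rw [hne, (hup s e1 hs1).2]; exact le_max_left _ _
        · refine le_trans ?_ (hother e he hne)
          rw [hmx]; simp only; rw [← max_swapAt s z e]; exact le_max_left _ _
      · exact le_of_eq_of_le (hw s hs1 hs2).symm (le_sup (f := (swapAt s z).1) he2C)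
    have hV1 := (hup s e1 hs1).1
    rcases hyM.lt_or_eq with hlt | heq
    · refine le_trans (le_of_eq ?_) le_self_add
      unfold win
      rw [if_pos, hmax]
      refine ⟨⟨e1, he1, by simp [qual, hS, hV1, hlt]⟩, fun e he hq => ?_⟩
      rw [hmax]
      by_cases hne : e = e1
      · rw [hne, hV1]
      · simp only [qual, if_true, hS] at hq
        exact absurd (hq.trans_le ((le_max_right _ _).trans_eq (max_swapAt s z e)))
          (not_lt.2 (hother e he hne))
    · refine le_trans (le_of_eq ?_) le_add_self
      unfold win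
      rw [if_pos, hmax]
      refine ⟨⟨e1, he1, by simp [qual, hS, hV1, heq]⟩, fun e he hq => ?_⟩
      simp only [qual, Bool.false_eq_true, if_false, hS] at hq
      rw [hmax, ← heq]
      exact hq
  rw [show C.sup mx = mx e1 from hM]
  calc (Fintype.card (α → Bool) : ℝ≥0) * mx e1 ≤ ((4 * #T : ℕ) : ℝ≥0) * mx e1 :=
        mul_le_mul_of_nonneg_right (Nat.cast_le.2 (card_two_bits_le hcons)) zero_le
    _ = 4 * ∑ _s ∈ T, mx e1 := by rw [sum_const, nsmul_eq_mul]; push_cast; ring
    _ ≤ 4 * ∑ s ∈ T, (win true C (swapAt s z) + win false C (swapAt s z)) :=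
        mul_le_mul_of_nonneg_left (sum_le_sum hgood) zero_le
    _ ≤ _ := mul_le_mul_of_nonneg_left
        (sum_le_sum_of_subset_of_nonneg (filter_subset _ _) fun _ _ _ => zero_le) zero_le

/-- The joint law of samples and values. -/
noncomputable abbrev law [Fintype α] (D : α → Measure ℝ≥0) :
    Measure ((α → ℝ≥0) × (α → ℝ≥0)) :=
  (Measure.pi D).prod (Measure.pi D)

theorem measurePreserving_swapAt [Fintype α] (D : α → Measure ℝ≥0)
    [∀ e, IsProbabilityMeasure (D e)] (s : α → Bool) :
    MeasurePreserving (swapAt s) (law D) (law D) := by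
  have hA := measurePreserving_arrowProdEquivProdArrow ℝ≥0 ℝ≥0 α D D
  let g : α → ℝ≥0 × ℝ≥0 → ℝ≥0 × ℝ≥0 := fun e => if s e = true then Prod.swap else id
  have hg : MeasurePreserving (fun (w : α → ℝ≥0 × ℝ≥0) e => g e (w e))
      (Measure.pi fun e => (D e).prod (D e)) (Measure.pi fun e => (D e).prod (D e)) := by
    refine measurePreserving_pi _ _ fun e => ?_
    simp only [g]
    split_ifs
    · exact Measure.measurePreserving_swap
    · exact MeasurePreserving.id _
  have h := hA.comp (hg.comp (hA.symm _))
  convert h using 1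
  funext z
  refine Prod.ext ?_ ?_ <;> funext e <;>
    simp only [Function.comp_apply, g, swapAt, MeasurableEquiv.arrowProdEquivProdArrow,
      MeasurableEquiv.coe_mk, MeasurableEquiv.symm_mk, Equiv.arrowProdEquivProdArrow] <;>
    by_cases hs : s e = true <;> simp [hs]

/-- One class keeps an eighth of its expected largest value. -/
theorem lintegral_sup_le [Fintype α] (D : α → Measure ℝ≥0) [∀ e, IsProbabilityMeasure (D e)]
    (C : Finset α) :
    ∫⁻ z, (C.sup z.2 : ℝ≥0) ∂law D ≤
      4 * (∫⁻ z, (win true C z : ℝ≥0) ∂law D + ∫⁻ z, (win false C z : ℝ≥0) ∂law D) := by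
  set n : ℝ≥0∞ := (Fintype.card (α → Bool) : ℝ≥0∞)
  have hn0 : n ≠ 0 := by simp [n]
  have hn1 : n ≠ ∞ := ENNReal.natCast_ne_top _
  have hw : ∀ b, Measurable fun z => (win b C z : ℝ≥0∞) := fun b =>
    measurable_coe_nnreal_ennreal.comp (measurable_win b C)
  have hmw : ∀ b s, Measurable fun z => (win b C (swapAt s z) : ℝ≥0∞) := fun b s =>
    (hw b).comp (measurePreserving_swapAt D s).measurable
  refine (ENNReal.mul_le_mul_iff_right hn0 hn1).1 ?_
  calc n * ∫⁻ z, (C.sup z.2 : ℝ≥0) ∂law D
      = ∫⁻ z, n * (C.sup z.2 : ℝ≥0) ∂law D := (lintegral_const_mul' _ _ hn1).symm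
    _ ≤ ∫⁻ z, 4 * ∑ s : α → Bool, ((win true C (swapAt s z) : ℝ≥0∞) +
          (win false C (swapAt s z) : ℝ≥0∞)) ∂law D := by
        refine lintegral_mono fun z => ?_
        have h1 : C.sup z.2 ≤ C.sup fun e => max (z.1 e) (z.2 e) :=
          Finset.sup_mono_fun fun e _ => le_max_right _ _
        have h2 : (Fintype.card (α → Bool) : ℝ≥0) * C.sup z.2 ≤
            4 * ∑ s : α → Bool, (win true C (swapAt s z) + win false C (swapAt s z)) :=
          (mul_le_mul_of_nonneg_left h1 zero_le).trans (swap_win_le C z)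
        have h3 := ENNReal.coe_le_coe.2 h2
        rw [ENNReal.coe_mul, ENNReal.coe_mul, ENNReal.ofNNReal_finsetSum, ENNReal.coe_natCast] at h3
        simp only [ENNReal.coe_add, ENNReal.coe_ofNat] at h3
        exact h3
    _ = 4 * ∑ s : α → Bool, (∫⁻ z, (win true C (swapAt s z) : ℝ≥0∞) ∂law D +
          ∫⁻ z, (win false C (swapAt s z) : ℝ≥0∞) ∂law D) := by
        rw [lintegral_const_mul' _ _ (by simp),
          lintegral_finsetSum (f := fun s z => (win true C (swapAt s z) : ℝ≥0∞) +
            (win false C (swapAt s z) : ℝ≥0∞)) _ fun s _ => (hmw true s).add (hmw false s)]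
        exact congrArg _ (sum_congr rfl fun s _ => lintegral_add_left (hmw true s) _)
    _ = 4 * ∑ _s : α → Bool, (∫⁻ z, (win true C z : ℝ≥0∞) ∂law D +
          ∫⁻ z, (win false C z : ℝ≥0∞) ∂law D) := by
        refine congrArg _ (sum_congr rfl fun s _ => ?_)
        rw [(measurePreserving_swapAt D s).lintegral_comp (hw true),
          (measurePreserving_swapAt D s).lintegral_comp (hw false)]
    _ = _ := by rw [sum_const, nsmul_eq_mul, card_univ]; ring

end Vale.Agent.P331
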